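import Vale.Agent.P252G.Geom
import Vale.Agent.P252B.Main

/-!
Assembly: the mass bound and the integrated certificate force a constant determinant.
-/

open Set MeasureTheory Filter Topology
open scoped Pointwise

namespace Vale.Agent.P252G

open Vale.Agent.P252 (hessian)
open Vale.Agent.P252B (V pd Admissible IsAM diffAt_of_mem hessian_congr fderiv_apply_sum convex_comb_le)

namespace Sol

variable {n : ℕ} (P : Sol n)

lemma integrableOn_sec {f : V n → ℝ} (hf : ContinuousOn f P.Ω) (h : ℝ) :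
    IntegrableOn f (P.sec h) volume :=
  ((hf.mono (P.csec_subset h)).integrableOn_compact (P.isCompact_csec h)).mono_set
    (P.sec_subset_csec h)

lemma continuousOn_dt_rpow (σ : ℝ) : ContinuousOn (fun x => dt P.u x ^ σ) P.Ω :=
  P.contDiffOn_dt.continuousOn.rpow_const fun _ hx => Or.inl (P.dt_pos hx).ne'

/-- A section grows at most like the dilation of a smaller one. -/
lemma volume_sec_growth {h₀ h : ℝ} (h0 : 0 < h₀) (hh : h₀ ≤ h) :
    (volume (P.sec h)).toReal ≤ (h / h₀) ^ n * (volume (P.sec h₀)).toReal := by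
  have hh0 : 0 < h := h0.trans_le hh
  set l := h₀ / h with hl
  have hl0 : 0 < l := by positivity
  have hl1 : l ≤ 1 := (div_le_one hh0).2 hh
  set T : V n → V n := fun x => (1 - l) • P.p₀ + l • x with hT
  have hsub : T '' P.sec h ⊆ P.sec h₀ := by
    rintro _ ⟨x, hx, rfl⟩
    refine ⟨P.convex P.mem₀ hx.1 (sub_nonneg.2 hl1) hl0.le (by ring), ?_⟩
    have h1 := convex_comb_le P.adm P.mem₀ hx.1 (sub_nonneg.2 hl1) hl0.le (by ring)
    rw [P.val₀, mul_zero, zero_add] at h1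
    have h2 := mul_lt_mul_of_pos_left hx.2 hl0
    rw [hl, div_mul_cancel₀ _ hh0.ne'] at h2
    exact h1.trans_lt h2
  have e : volume (T '' P.sec h) = ENNReal.ofReal (l ^ n) * volume (P.sec h) := by
    have : T '' P.sec h = (fun w => (1 - l) • P.p₀ + w) '' (l • P.sec h) := by
      rw [← Set.image_smul, Set.image_image]
    rw [this, Set.image_add_left, measure_preimage_add, Measure.addHaar_smul,
      finrank_euclideanSpace_fin, abs_of_pos (by positivity)]
  have := ENNReal.toReal_mono (P.volume_sec_lt_top h₀).ne (measure_mono (μ := volume) hsub)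
  rw [e, ENNReal.toReal_mul, ENNReal.toReal_ofReal (by positivity), hl, div_pow, div_mul_eq_mul_div,
    div_le_iff₀ (by positivity)] at this
  rw [div_pow, div_mul_eq_mul_div, le_div_iff₀ (by positivity)]
  linarith

/-- The integral of `cut ^ M * det ^ σ` from the mass bound with `σ ≤ θ`. -/
lemma mass_rpow {M : ℕ} {σ θ N h : ℝ} (hσ0 : 0 ≤ σ) (hσθ : σ ≤ θ) (hh : 0 < h)
    (hN : (∫ x in P.sec h, P.cut h x ^ M * dt P.u x ^ θ) ≤
      N * h ^ M * h ^ ((n : ℝ) * θ) * (volume (P.sec h)).toReal ^ (1 - 2 * θ)) :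
    (∫ x in P.sec h, P.cut h x ^ M * dt P.u x ^ σ) ≤
      (|N| + 1) * h ^ M * h ^ ((n : ℝ) * σ) * (volume (P.sec h)).toReal ^ (1 - 2 * σ) := by
  set S := (volume (P.sec h)).toReal with hS
  have hS0 : 0 < S := P.volume_sec_pos hh
  set a := h ^ (n : ℝ) * S ^ (-2:ℝ) with ha
  have ha0 : 0 < a := by positivity
  have hm1 : ∀ x ∈ P.sec h, P.cut h x ^ M * dt P.u x ^ σ ≤
      a ^ (σ - θ) * (P.cut h x ^ M * dt P.u x ^ θ) + a ^ σ * P.cut h x ^ M := by
    intro x hx
    have ht := P.dt_pos (P.sec_subset h hx)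
    refine (mul_le_mul_of_nonneg_left (rpow_le_scaled ht ha0 hσ0 hσθ)
      (pow_nonneg (P.cut_nonneg hx) M)).trans (le_of_eq ?_)
    ring
  have hc := P.continuousOn_cut h
  have i1 : IntegrableOn (fun x => P.cut h x ^ M * dt P.u x ^ θ) (P.sec h) volume :=
    P.integrableOn_sec ((hc.pow M).mul (P.continuousOn_dt_rpow θ)) h
  have i2 : IntegrableOn (fun x => P.cut h x ^ M) (P.sec h) volume :=
    P.integrableOn_sec (hc.pow M) h
  have h2 : (∫ x in P.sec h, P.cut h x ^ M) ≤ h ^ M * S := by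
    refine (setIntegral_mono_on i2 (integrableOn_const (C := h ^ M) (P.volume_sec_lt_top h).ne)
      (P.measurableSet_sec h) fun x hx => pow_le_pow_left₀ (P.cut_nonneg hx) (P.cut_le hx) M).trans
      (le_of_eq ?_)
    rw [setIntegral_const, smul_eq_mul, measureReal_def, ← hS]
    ring
  refine (setIntegral_mono_on (P.integrableOn_sec ((hc.pow M).mul (P.continuousOn_dt_rpow σ)) h)
    ((i1.const_mul _).add (i2.const_mul _)) (P.measurableSet_sec h) hm1).trans ?_
  simp only [Pi.add_apply]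
  rw [integral_add (i1.const_mul _) (i2.const_mul _), integral_const_mul, integral_const_mul]
  have h1 : (∫ x in P.sec h, P.cut h x ^ M * dt P.u x ^ θ) ≤
      |N| * h ^ M * h ^ ((n : ℝ) * θ) * S ^ (1 - 2 * θ) :=
    hN.trans (by gcongr; exact le_abs_self N)
  refine (add_le_add (mul_le_mul_of_nonneg_left h1 (by positivity))
    (mul_le_mul_of_nonneg_left h2 (by positivity))).trans (le_of_eq ?_)
  have b1 : a ^ (σ - θ) * (h ^ ((n : ℝ) * θ) * S ^ (1 - 2 * θ)) =
      h ^ ((n : ℝ) * σ) * S ^ (1 - 2 * σ) := by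
    rw [ha, Real.mul_rpow (by positivity) (by positivity), ← Real.rpow_mul hh.le,
      ← Real.rpow_mul hS0.le, mul_mul_mul_comm, ← Real.rpow_add hh, ← Real.rpow_add hS0]
    ring_nf
  have b2 : a ^ σ * S = h ^ ((n : ℝ) * σ) * S ^ (1 - 2 * σ) := by
    rw [ha, Real.mul_rpow (by positivity) (by positivity), ← Real.rpow_mul hh.le,
      ← Real.rpow_mul hS0.le, mul_assoc, ← Real.rpow_add_one hS0.ne']
    ring_nf
  calc _ = |N| * h ^ M * (a ^ (σ - θ) * (h ^ ((n : ℝ) * θ) * S ^ (1 - 2 * θ)))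
        + h ^ M * (a ^ σ * S) := by ring
    _ = _ := by rw [b1, b2]; ring

/-- Decay of the certificate integral on a fixed section. -/
lemma integral_qX_eq_zero {M q : ℕ} {σ θ : ℝ} (hσ0 : 0 ≤ σ) (hσθ : σ ≤ θ)
    (hq : (n : ℝ) * max σ (1 - σ) < q) (hM : MassSpec n θ M)
    (hC : CertSpec n q σ M) {h₀ : ℝ} (hh₀ : 0 < h₀) :
    (∫ x in P.sec h₀, qX P.u x ^ q * dt P.u x ^ σ) = 0 := by
  obtain ⟨N₁, hN₁⟩ := hM
  obtain ⟨N₂, hN₂⟩ := hC
  set I := ∫ x in P.sec h₀, qX P.u x ^ q * dt P.u x ^ σ with hI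
  have hI0 : 0 ≤ I := setIntegral_nonneg (P.measurableSet_sec h₀) fun x hx =>
    mul_nonneg (pow_nonneg (P.qX_nonneg (P.sec_subset _ hx)) q)
      (Real.rpow_nonneg (P.dt_pos (P.sec_subset _ hx)).le _)
  set S₀ := (volume (P.sec h₀)).toReal with hS₀
  have hS00 : 0 < S₀ := P.volume_sec_pos hh₀
  set e := (n : ℝ) * max σ (1 - σ) with he
  obtain ⟨C₀, hC₀0, hC₀⟩ : ∃ C₀ : ℝ, 0 ≤ C₀ ∧ ∀ h, h₀ ≤ h →
      h ^ ((n : ℝ) * σ) * (volume (P.sec h)).toReal ^ (1 - 2 * σ) ≤ C₀ * h ^ e := by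
    rcases le_or_gt (1/2) σ with hσ | hσ
    · refine ⟨S₀ ^ (1 - 2 * σ), by positivity, fun h hh => ?_⟩
      rw [he, max_eq_left (by linarith), mul_comm (S₀ ^ _)]
      exact mul_le_mul_of_nonneg_left (Real.rpow_le_rpow_of_nonpos hS00
        (P.volume_sec_mono hh) (by linarith)) (Real.rpow_nonneg (hh₀.le.trans hh) _)
    · refine ⟨(S₀ / h₀ ^ n) ^ (1 - 2 * σ), by positivity, fun h hh => ?_⟩
      have hh0 : 0 < h := hh₀.trans_le hh
      have h1 : (volume (P.sec h)).toReal ^ (1 - 2 * σ) ≤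
          (h ^ (n : ℝ)) ^ (1 - 2 * σ) * (S₀ / h₀ ^ n) ^ (1 - 2 * σ) := by
        rw [← Real.mul_rpow (by positivity) (by positivity)]
        refine Real.rpow_le_rpow ENNReal.toReal_nonneg ?_ (by linarith)
        refine (P.volume_sec_growth hh₀ hh).trans (le_of_eq ?_)
        rw [Real.rpow_natCast, div_pow]; ring
      refine (mul_le_mul_of_nonneg_left h1 (by positivity)).trans (le_of_eq ?_)
      rw [← Real.rpow_mul hh0.le, ← mul_assoc, ← Real.rpow_add hh0, he,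
        max_eq_right (by linarith)]
      ring_nf
  set C := 2 ^ (M + q) * |N₂| * (|N₁| + 1) * C₀ with hC'
  have key : ∀ h : ℝ, 2 * h₀ ≤ h → I ≤ C * h ^ (-((q : ℝ) - e)) := by
    intro h hh
    have hh0 : 0 < h := by linarith
    have hint : ∀ s, IntegrableOn
        (fun x => P.cut h x ^ (M + q) * qX P.u x ^ q * dt P.u x ^ σ) (P.sec s) volume := fun s =>
      P.integrableOn_sec ((((P.continuousOn_cut h).pow _).mul (P.continuousOn_qX.pow q)).mul
        (P.continuousOn_dt_rpow σ)) s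
    have hsub : P.sec h₀ ⊆ P.sec h := P.sec_mono (by linarith)
    have a1 : (h / 2) ^ (M + q) * I ≤
        ∫ x in P.sec h₀, P.cut h x ^ (M + q) * qX P.u x ^ q * dt P.u x ^ σ := by
      rw [hI, ← integral_const_mul]
      refine setIntegral_mono_on ((P.integrableOn_sec ((P.continuousOn_qX.pow q).mul
        (P.continuousOn_dt_rpow σ)) h₀).const_mul _) (hint h₀) (P.measurableSet_sec h₀) fun x hx => ?_
      rw [mul_assoc (P.cut h x ^ (M + q))]
      refine mul_le_mul_of_nonneg_right (pow_le_pow_left₀ (by linarith) ?_ _)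
        (mul_nonneg (pow_nonneg (P.qX_nonneg (P.sec_subset _ hx)) q)
          (Real.rpow_nonneg (P.dt_pos (P.sec_subset _ hx)).le _))
      have : P.u x < h₀ := hx.2
      simp only [Sol.cut]
      linarith
    have a2 : (∫ x in P.sec h₀, P.cut h x ^ (M + q) * qX P.u x ^ q * dt P.u x ^ σ) ≤
        ∫ x in P.sec h, P.cut h x ^ (M + q) * qX P.u x ^ q * dt P.u x ^ σ := by
      refine setIntegral_mono_set (hint h) ?_ (Eventually.of_forall fun x hx => hsub hx)
      filter_upwards [ae_restrict_mem (P.measurableSet_sec h)] with x hx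
      exact mul_nonneg (mul_nonneg (pow_nonneg (P.cut_nonneg hx) _)
        (pow_nonneg (P.qX_nonneg (P.sec_subset _ hx)) q))
        (Real.rpow_nonneg (P.dt_pos (P.sec_subset _ hx)).le _)
    have hpos : 0 ≤ ∫ x in P.sec h, P.cut h x ^ M * dt P.u x ^ σ :=
      setIntegral_nonneg (P.measurableSet_sec h) fun x hx =>
        mul_nonneg (pow_nonneg (P.cut_nonneg hx) _)
          (Real.rpow_nonneg (P.dt_pos (P.sec_subset _ hx)).le _)
    have a3 : (∫ x in P.sec h, P.cut h x ^ M * dt P.u x ^ σ) ≤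
        (|N₁| + 1) * h ^ M * (C₀ * h ^ e) := by
      refine (P.mass_rpow hσ0 hσθ hh0 (hN₁ P h hh0)).trans ?_
      rw [mul_assoc]
      exact mul_le_mul_of_nonneg_left (hC₀ h (by linarith)) (by positivity)
    have a4 : (h / 2) ^ (M + q) * I ≤ |N₂| * ((|N₁| + 1) * h ^ M * (C₀ * h ^ e)) :=
      a1.trans (a2.trans ((hN₂ P h hh0).trans ((mul_le_mul_of_nonneg_right (le_abs_self N₂) hpos).trans
        (mul_le_mul_of_nonneg_left a3 (abs_nonneg N₂)))))
    rw [← le_div_iff₀' (by positivity)] at a4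
    refine a4.trans (le_of_eq ?_)
    rw [hC', div_pow, pow_add h M q, show -((q : ℝ) - e) = e - (q : ℝ) by ring,
      Real.rpow_sub hh0, Real.rpow_natCast]
    field_simp
  have hlim : Tendsto (fun h : ℝ => C * h ^ (-((q : ℝ) - e))) atTop (𝓝 0) := by
    simpa using (tendsto_rpow_neg_atTop (sub_pos.2 hq)).const_mul C
  exact le_antisymm (ge_of_tendsto hlim (eventually_atTop.2 ⟨2 * h₀, key⟩)) hI0

/-- The determinant is constant. -/
theorem dt_const {M q : ℕ} {σ θ : ℝ} (hσ0 : 0 ≤ σ) (hσθ : σ ≤ θ) (hq : (n : ℝ) * max σ (1 - σ) < q)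
    (hM : MassSpec n θ M)
    (hC : CertSpec n q σ M) {x : V n} (hx : x ∈ P.Ω) : dt P.u x = dt P.u P.p₀ := by
  have hz : ∀ y ∈ P.Ω, fderiv ℝ (lg P.u) y = 0 := by
    intro y hy
    refine P.fderiv_lg_eq_zero hy ?_
    have hh : 0 < P.u y + 1 := by linarith [P.nonneg hy]
    have h0 := P.integral_qX_eq_zero hσ0 hσθ hq hM hC hh
    have hco : ContinuousOn (fun x => qX P.u x ^ q * dt P.u x ^ σ) (P.sec (P.u y + 1)) :=
      ((P.continuousOn_qX.pow q).mul (P.continuousOn_dt_rpow σ)).mono (P.sec_subset _)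
    have hint : IntegrableOn (fun x => qX P.u x ^ q * dt P.u x ^ σ) (P.sec (P.u y + 1)) volume :=
      P.integrableOn_sec ((P.continuousOn_qX.pow q).mul (P.continuousOn_dt_rpow σ)) _
    rw [setIntegral_eq_zero_iff_of_nonneg_ae ?_ hint] at h0
    swap
    · filter_upwards [ae_restrict_mem (P.measurableSet_sec _)] with z hz
      exact mul_nonneg (pow_nonneg (P.qX_nonneg (P.sec_subset _ hz)) q)
        (Real.rpow_nonneg (P.dt_pos (P.sec_subset _ hz)).le _)
    have := Measure.eqOn_open_of_ae_eq h0 (P.isOpen_sec _) hco continuousOn_const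
      (show y ∈ P.sec (P.u y + 1) from ⟨hy, by linarith⟩)
    rcases mul_eq_zero.1 this with h1 | h1
    · refine pow_eq_zero_iff (fun h0' => ?_) |>.1 h1
      rw [h0', Nat.cast_zero] at hq
      linarith [mul_nonneg (Nat.cast_nonneg (α := ℝ) n)
        ((le_max_left σ (1 - σ)).trans' hσ0)]
    · exact absurd h1 (Real.rpow_pos_of_pos (P.dt_pos hy) _).ne'
  have he : lg P.u x = lg P.u P.p₀ :=
    P.isOpen.is_const_of_fderiv_eq_zero P.convex.isPreconnected
      (P.contDiffOn_lg.differentiableOn (by norm_num)) hz hx P.mem₀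
  have : Real.log (dt P.u x) = Real.log (dt P.u P.p₀) := by
    simp only [lg] at he
    exact neg_inj.1 ((div_left_inj' (by positivity)).1 he)
  exact Real.log_injOn_pos (P.dt_pos hx) (P.dt_pos P.mem₀) this

end Sol

/-- Rigidity from the three modules, for a normalised solution. -/
theorem Sol.rigid {n : ℕ} (P : Sol n) {M q : ℕ} {σ θ : ℝ} (hσ0 : 0 ≤ σ) (hσθ : σ ≤ θ) (hq : (n : ℝ) * max σ (1 - σ) < q)
    (hM : MassSpec n θ M)
    (hC : CertSpec n q σ M) (hD : DetConstSpec n) :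
    P.Ω = univ ∧ ∃ (A : Fin n → Fin n → ℝ) (b : Fin n → ℝ) (c : ℝ),
      ∀ x, P.u x = (∑ i, ∑ j, A i j * x i * x j) + (∑ i, b i * x i) + c :=
  hD P (dt P.u P.p₀) fun _ hx => P.dt_const hσ0 hσθ hq hM hC hx

/-- Rigidity from the three modules. -/
theorem rigidity {n : ℕ} {M q : ℕ} {σ θ : ℝ} (hσ0 : 0 ≤ σ) (hσθ : σ ≤ θ) (hq : (n : ℝ) * max σ (1 - σ) < q)
    (hM : MassSpec n θ M)
    (hC : CertSpec n q σ M) (hD : DetConstSpec n) (Ω : Set (V n)) (u : V n → ℝ)
    (hne : Ω.Nonempty) (hu : Admissible Ω u) (ham : IsAM Ω u)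
    (hcl : IsClosed {p : V n × ℝ | p.1 ∈ Ω ∧ p.2 = u p.1}) :
    Ω = univ ∧ ∃ (A : Fin n → Fin n → ℝ) (b : Fin n → ℝ) (c : ℝ),
      ∀ x, u x = (∑ i, ∑ j, A i j * x i * x j) + (∑ i, b i * x i) + c := by
  obtain ⟨x₀, hx₀⟩ := hne
  obtain ⟨hΩ, hc, hus, hpd⟩ := id hu
  set L := fderiv ℝ u x₀ with hL
  set u' := fun x => u x - (u x₀ + L (x - x₀)) with hu'
  have hlin : ContDiffOn ℝ (↑(⊤ : ℕ∞)) (fun x => u x₀ + L (x - x₀)) Ω :=
    (contDiff_const.add (L.contDiff.comp (contDiff_id.sub contDiff_const))).contDiffOn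
  have hd : ∀ y ∈ Ω, HasFDerivAt u' (fderiv ℝ u y - L) y := fun y hy => by
    have h2 : HasFDerivAt (fun x => u x₀ + L (x - x₀)) L y :=
      (L.hasFDerivAt.comp y ((hasFDerivAt_id y).sub_const x₀)).const_add (u x₀)
    exact (diffAt_of_mem hΩ hus hy).hasFDerivAt.sub h2
  have hH : ∀ y ∈ Ω, hessian u' y = hessian u y := fun y hy => by
    ext i j
    have e : fderiv ℝ u' =ᶠ[nhds y] fun z => fderiv ℝ u z - L :=
      Filter.eventuallyEq_of_mem (hΩ.mem_nhds hy) fun z hz => (hd z hz).fderiv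
    simp only [hessian, Matrix.of_apply, e.fderiv_eq, fderiv_sub_const]
  have ham' : IsAM Ω u' := by
    intro x hx
    refine Eq.trans ?_ (ham x hx)
    have e : (fun y => (hessian u' y).det ^ (-((n : ℝ) + 1) / ((n : ℝ) + 2))) =ᶠ[nhds x]
        fun y => (hessian u y).det ^ (-((n : ℝ) + 1) / ((n : ℝ) + 2)) :=
      Filter.eventuallyEq_of_mem (hΩ.mem_nhds hx) fun y hy => by simp only [hH y hy]
    simp only [← neg_div]
    simp only [hH x hx, hessian_congr e]
  have hcl' : IsClosed {p : V n × ℝ | p.1 ∈ Ω ∧ p.2 = u' p.1} := by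
    have e : {p : V n × ℝ | p.1 ∈ Ω ∧ p.2 = u' p.1} =
        (fun p : V n × ℝ => (p.1, p.2 + (u x₀ + L (p.1 - x₀)))) ⁻¹'
          {p : V n × ℝ | p.1 ∈ Ω ∧ p.2 = u p.1} := by
      ext p
      simp only [Set.mem_ofPred_eq, Set.mem_preimage, hu', eq_sub_iff_add_eq]
    rw [e]
    exact hcl.preimage (by fun_prop)
  obtain ⟨h1, A, b, c, h2⟩ := Sol.rigid
    ⟨Ω, u', ⟨hΩ, hc, hus.sub hlin, fun x hx => (hH x hx).symm ▸ hpd x hx⟩, ham', hcl', x₀, hx₀,
      by simp [hu'], by rw [(hd x₀ hx₀).fderiv, sub_self]⟩ hσ0 hσθ hq hM hC hD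
  refine ⟨h1, A, fun i => b i + L (EuclideanSpace.single i 1), c + u x₀ - L x₀, fun x => ?_⟩
  have h3 : u x = u' x + (u x₀ + L (x - x₀)) := by simp [hu']
  have h4 : L x = ∑ i, x i * L (EuclideanSpace.single i 1) := by
    rw [hL, fderiv_apply_sum]
    rfl
  rw [h3]
  simp only [add_mul, Finset.sum_add_distrib, map_sub]
  rw [show u' x = (∑ i, ∑ j, A i j * x i * x j) + (∑ i, b i * x i) + c from h2 x, h4]
  simp only [mul_comm (L _)]
  ring

/-- The radial step of the mass bound. -/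
def RadialSpec (n : ℕ) (θ : ℝ) (M : ℕ) : Prop :=
  ∃ N δ : ℝ, 0 ≤ N ∧ 0 < δ ∧ δ < 1 ∧ ∀ (P : Sol n) (h : ℝ), 0 < h → ∀ c ∈ P.sec h, P.u c ≤ h / 2 →
    (∫ x in P.sec h, P.cut h x ^ M * dt P.u x ^ θ) ≤
      N * ∫ x in P.inner h c δ, P.cut h x ^ M * dt P.u x ^ θ

theorem massSpec_of_radial {n M : ℕ} {θ : ℝ} (hθ0 : 0 ≤ θ) (hθ1 : θ ≤ 1)
    (hR : RadialSpec n θ M) : MassSpec n θ M := by
  obtain ⟨N, δ, hN, h0, h1, hR⟩ := hR
  refine ⟨N * ((8 * ((n : ℝ) + 1)) ^ n / δ ^ n + 1), fun P h hh => ?_⟩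
  obtain ⟨c, hc, hcu, hb⟩ := P.inner_bound M hθ0 hθ1 hh h0 h1
  refine (hR P h hh c hc hcu).trans ?_
  refine (mul_le_mul_of_nonneg_left hb hN).trans (le_of_eq ?_)
  ring

theorem massSpec_mono {n M : ℕ} {θ : ℝ} (k : ℕ) (hM : MassSpec n θ M) :
    MassSpec n θ (M + k) := by
  obtain ⟨N, hN⟩ := hM
  refine ⟨N, fun P h hh => ?_⟩
  have hd := P.continuousOn_dt_rpow θ
  refine (setIntegral_mono_on (P.integrableOn_sec (((P.continuousOn_cut h).pow _).mul hd) h)
    ((P.integrableOn_sec (((P.continuousOn_cut h).pow M).mul hd) h).const_mul (h ^ k))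
    (P.measurableSet_sec h) fun x hx => ?_).trans ?_
  · show P.cut h x ^ (M + k) * dt P.u x ^ θ ≤ h ^ k * (P.cut h x ^ M * dt P.u x ^ θ)
    rw [pow_add, mul_comm (P.cut h x ^ M), mul_assoc]
    exact mul_le_mul_of_nonneg_right (pow_le_pow_left₀ (P.cut_nonneg hx) (P.cut_le hx) k)
      (mul_nonneg (pow_nonneg (P.cut_nonneg hx) _)
        (Real.rpow_nonneg (P.dt_pos (P.sec_subset h hx)).le _))
  · rw [integral_const_mul]
    refine (mul_le_mul_of_nonneg_left (hN P h hh) (by positivity)).trans (le_of_eq ?_)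
    ring

end Vale.Agent.P252G
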