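import Vale.Agent.P252B.Defs

/-!
Interfaces for the rigidity theorem in every dimension.
-/

open Set MeasureTheory

namespace Vale.Agent.P252G

open Vale.Agent.P252 (hessian)
open Vale.Agent.P252B (V pd Admissible IsAM)

/-- A solution normalised at `p₀`: value and differential vanish there. -/
structure Sol (n : ℕ) where
  Ω : Set (V n)
  u : V n → ℝ
  adm : Admissible Ω u
  am : IsAM Ω u
  closed_graph : IsClosed {p : V n × ℝ | p.1 ∈ Ω ∧ p.2 = u p.1}
  p₀ : V n
  mem₀ : p₀ ∈ Ω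
  val₀ : u p₀ = 0
  diff₀ : fderiv ℝ u p₀ = 0

variable {n : ℕ}

/-- The determinant of the Hessian. -/
noncomputable def dt (u : V n → ℝ) (x : V n) : ℝ := (hessian u x).det

/-- `L = -log det / (n + 2)`. -/
noncomputable def lg (u : V n → ℝ) (x : V n) : ℝ := -Real.log (dt u x) / ((n : ℝ) + 2)

/-- The pairing of two differentials in the metric `g = D²u`. -/
noncomputable def gdot (u f g : V n → ℝ) (x : V n) : ℝ :=
  ∑ i, ∑ j, (hessian u x)⁻¹ i j * pd f i x * pd g j x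

/-- `X = |dL|²` in the metric `g`. -/
noncomputable def qX (u : V n → ℝ) (x : V n) : ℝ := gdot u (lg u) (lg u) x

namespace Sol

variable (P : Sol n)

/-- The section of height `h`. -/
def sec (h : ℝ) : Set (V n) := {x | x ∈ P.Ω ∧ P.u x < h}

/-- The closed section of height `h`. -/
def csec (h : ℝ) : Set (V n) := {x | x ∈ P.Ω ∧ P.u x ≤ h}

/-- The cutoff `v = h - u`. -/
def cut (h : ℝ) (x : V n) : ℝ := h - P.u x

end Sol

/-- The mass bound with weight `det ^ θ` and cutoff exponent `M`. -/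
def MassSpec (n : ℕ) (θ : ℝ) (M : ℕ) : Prop :=
  ∃ N : ℝ, ∀ (P : Sol n) (h : ℝ), 0 < h →
    (∫ x in P.sec h, P.cut h x ^ M * dt P.u x ^ θ) ≤
      N * h ^ M * h ^ ((n : ℝ) * θ) * (volume (P.sec h)).toReal ^ (1 - 2 * θ)

/-- What the divergence certificate yields: `q` is the power of `X`, the measure is `det ^ σ`. -/
def CertSpec (n q : ℕ) (σ : ℝ) (M : ℕ) : Prop :=
  ∃ N : ℝ, ∀ (P : Sol n) (h : ℝ), 0 < h →
    (∫ x in P.sec h, P.cut h x ^ (M + q) * qX P.u x ^ q * dt P.u x ^ σ) ≤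
      N * ∫ x in P.sec h, P.cut h x ^ M * dt P.u x ^ σ

/-- A solution with constant determinant is an entire quadratic. -/
def DetConstSpec (n : ℕ) : Prop :=
  ∀ (P : Sol n) (D : ℝ), (∀ x ∈ P.Ω, dt P.u x = D) →
    P.Ω = univ ∧ ∃ (A : Fin n → Fin n → ℝ) (b : Fin n → ℝ) (c : ℝ),
      ∀ x, P.u x = (∑ i, ∑ j, A i j * x i * x j) + (∑ i, b i * x i) + c

end Vale.Agent.P252G
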