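import Vale.Agent.P252G.Final
import Vale.Agent.P252.Calc

/-!
The dimensions in which rigidity fails, and the dichotomy.
-/

open Set MeasureTheory

namespace Vale.Agent.P252G

open Vale.Agent.P252 (hessian)
open Vale.Agent.P252B (V Admissible IsAM)
open Vale.Agent.P252D (EuclideanComplete euclideanComplete_univ)

/-- A smooth entire solution which is not quadratic, in dimension at least ten. -/
theorem exists_counterexample {n : ℕ} (hn : 10 ≤ n) :
    ∃ u : V n → ℝ, ContDiff ℝ (↑(⊤ : ℕ∞)) u ∧ (∀ x, (hessian u x).PosDef) ∧ IsAM univ u ∧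
      ¬ ∃ (S : Matrix (Fin n) (Fin n) ℝ) (b : Fin n → ℝ) (c : ℝ),
        ∀ x : V n, u x = (∑ i, ∑ j, S i j * x i * x j) / 2 + (∑ i, b i * x i) + c := by
  obtain ⟨m, rfl⟩ : ∃ m, n = m + 1 := ⟨n - 1, by omega⟩
  have hμ : (9 : ℝ) ≤ (m : ℝ) := by exact_mod_cast (show 9 ≤ m by omega)
  obtain ⟨Q⟩ := P252.exists_profile hμ
  have hm : 1 ≤ m := by omega
  refine ⟨P252.uu Q, P252.contDiff_uu Q, P252.posDef_HH Q, fun x _ => P252.equation_uu Q hm x, ?_⟩
  rintro ⟨S, b, c, h⟩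
  refine P252.not_quadratic Q ⟨fun i j => S i j / 2, b, c, fun x => ?_⟩
  rw [h x]
  simp only [Finset.sum_div, div_mul_eq_mul_div]

/-- Rigidity fails in every dimension at least ten. -/
theorem not_rigidSpec {n : ℕ} (hn : 10 ≤ n) : ¬ RigidSpec n := by
  obtain ⟨u, hs, hp, ha, hnq⟩ := exists_counterexample hn
  intro hR
  have hu : Admissible (univ : Set (V n)) u :=
    ⟨isOpen_univ, convex_univ, hs.contDiffOn, fun x _ => hp x⟩
  obtain ⟨-, S, b, c, -, h⟩ :=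
    (hR univ u univ_nonempty hu).1 ⟨ha, euclideanComplete_univ hu⟩
  exact hnq ⟨S, b, c, h⟩

/-- The unfolded dichotomy: rigidity holds exactly in the dimensions from three to nine. -/
theorem dichotomy (h39 : ∀ n, 3 ≤ n → n ≤ 9 → RigidSpec n) :
    (∀ n : ℕ, 3 ≤ n →
      ((∀ (Ω : Set (EuclideanSpace ℝ (Fin n))) (u : EuclideanSpace ℝ (Fin n) → ℝ),
        IsOpen Ω → Convex ℝ Ω → Ω.Nonempty → ContDiffOn ℝ (↑(⊤ : ℕ∞)) u Ω →
        (∀ x ∈ Ω, (hessian u x).PosDef) →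
        (∀ x ∈ Ω, ∑ i, ∑ j, ((hessian u x).det * (hessian u x)⁻¹ i j)
          * hessian (fun y => (hessian u y).det ^ (-(((n : ℝ) + 1) / ((n : ℝ) + 2)))) x i j = 0) →
        EuclideanComplete Ω u →
        Ω = univ ∧ ∃ (A : Matrix (Fin n) (Fin n) ℝ) (b : Fin n → ℝ) (c : ℝ), A.PosDef ∧
          ∀ x, u x = (∑ i, ∑ j, A i j * x i * x j) / 2 + (∑ i, b i * x i) + c) ↔ n ≤ 9)) ∧
    ∀ n : ℕ, 3 ≤ n →
      ((∀ u : EuclideanSpace ℝ (Fin n) → ℝ, ContDiff ℝ (↑(⊤ : ℕ∞)) u →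
        (∀ x, (hessian u x).PosDef) →
        (∀ x, ∑ i, ∑ j, ((hessian u x).det * (hessian u x)⁻¹ i j)
          * hessian (fun y => (hessian u y).det ^ (-(((n : ℝ) + 1) / ((n : ℝ) + 2)))) x i j = 0) →
        ∃ (A : Matrix (Fin n) (Fin n) ℝ) (b : Fin n → ℝ) (c : ℝ),
          ∀ x, u x = (∑ i, ∑ j, A i j * x i * x j) / 2 + (∑ i, b i * x i) + c) ↔ n ≤ 9) := by
  refine ⟨fun n hn => ⟨fun hall => ?_, fun h9 Ω u ho hc hne hs hp ham hC => ?_⟩,
    fun n hn => ⟨fun hall => ?_, fun h9 u hs hp ham => ?_⟩⟩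
  · by_contra h9
    obtain ⟨u, hs, hp, ha, hnq⟩ := exists_counterexample (n := n) (by omega)
    have hu : Admissible (univ : Set (V n)) u :=
      ⟨isOpen_univ, convex_univ, hs.contDiffOn, fun x _ => hp x⟩
    obtain ⟨-, S, b, c, -, h⟩ := hall univ u isOpen_univ convex_univ univ_nonempty hs.contDiffOn
      (fun x _ => hp x) ha (euclideanComplete_univ hu)
    exact hnq ⟨S, b, c, h⟩
  · exact (h39 n hn h9 Ω u hne ⟨ho, hc, hs, hp⟩).1 ⟨ham, hC⟩
  · by_contra h9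
    obtain ⟨u, hs, hp, ha, hnq⟩ := exists_counterexample (n := n) (by omega)
    exact hnq (hall u hs hp fun x => ha x (mem_univ x))
  · have hu : Admissible (univ : Set (V n)) u :=
      ⟨isOpen_univ, convex_univ, hs.contDiffOn, fun x _ => hp x⟩
    obtain ⟨-, S, b, c, -, h⟩ :=
      (h39 n hn h9 univ u univ_nonempty hu).1 ⟨fun x _ => ham x, euclideanComplete_univ hu⟩
    exact ⟨S, b, c, h⟩

end Vale.Agent.P252G
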