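import Vale.Agent.P252G.Assembly
import Vale.Agent.P252G.CertGlue
import Vale.Agent.P252G.Div.All
import Vale.Agent.P252D.Quadratic
import Vale.Agent.P252G.Const.Main

/-!
Rigidity in dimension `n` from the parameters, the mass bound and the pointwise certificate.
-/

open Set MeasureTheory

namespace Vale.Agent.P252G

open Vale.Agent.P252 (hessian)
open Vale.Agent.P252B (V Admissible IsAM)
open Vale.Agent.P252D (EuclideanComplete quad isAM_quad euclideanComplete_univ paraboloid_form)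

/-- Euclidean complete solutions in dimension `n` are exactly the elliptic paraboloids. -/
def RigidSpec (n : ℕ) : Prop :=
  ∀ (Ω : Set (V n)) (u : V n → ℝ), Ω.Nonempty → Admissible Ω u →
    ((IsAM Ω u ∧ EuclideanComplete Ω u) ↔
      Ω = univ ∧ ∃ (S : Matrix (Fin n) (Fin n) ℝ) (b : Fin n → ℝ) (c : ℝ), S.PosDef ∧
        ∀ x : V n, u x = (∑ i, ∑ j, S i j * x i * x j) / 2 + (∑ i, b i * x i) + c)

/-- The converse: paraboloids are Euclidean complete solutions. -/
lemma paraboloid_complete {n : ℕ} {u : V n → ℝ} (hu : Admissible univ u)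
    {S : Matrix (Fin n) (Fin n) ℝ} {b : Fin n → ℝ} {c : ℝ}
    (h : ∀ x : V n, u x = (∑ i, ∑ j, S i j * x i * x j) / 2 + (∑ i, b i * x i) + c) :
    IsAM univ u ∧ EuclideanComplete univ u := by
  have hu' : u = quad (fun i j => S i j / 2) b c := funext fun x => by
    rw [h x, quad]
    simp only [Finset.sum_div, div_mul_eq_mul_div]
  exact ⟨hu' ▸ isAM_quad _ b c univ, euclideanComplete_univ hu⟩

/-- Rigidity from the data of one dimension. -/
theorem rigidSpec {ι : Type} [Fintype ι] {n q M : ℕ} {σ θ : ℝ} {F : ι → Fld}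
    {e : ι → ℕ × ℕ × ℕ} {c : ι → ℝ} {ε N : ℝ} (hσ0 : 0 ≤ σ) (hσθ : σ ≤ θ)
    (hq : (n : ℝ) * max σ (1 - σ) < q) (hM : MassSpec n θ M)
    (hdeg : ∀ i, udeg (F i) (e i) + 2 ≤ M + q) (hε : 0 < ε)
    (hP : PointCert n q σ (M + q) F e c ε N) : RigidSpec n := by
  intro Ω u hne hu
  constructor
  · rintro ⟨ham, hC⟩
    obtain ⟨hΩ, A, b, k, h⟩ := rigidity hσ0 hσθ hq hM (certSpec hdeg hε hP (divSpec n σ _)) (detConstSpec n)
      Ω u hne hu ham (hC.isClosed_graph hu)
    subst hΩ
    exact ⟨rfl, paraboloid_form hu h⟩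
  · rintro ⟨rfl, S, b, k, -, h⟩
    exact paraboloid_complete hu h

end Vale.Agent.P252G
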