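import Vale.Agent.P252G.InstanceW

/-!
Dimension four from a reduced weighted certificate.
-/

namespace Vale.Agent.P252G

/-- Rigidity in dimension four from the reduced certificate with the chosen parameters. -/
theorem rigidSpec_four_of_red {ι : Type} [Fintype ι] {t : ι → WTerm} {c : ι → ℝ}
    (hok : ∀ i, (t i).Ok 45)
    (H : ∃ ε N : ℝ, 0 < ε ∧ Cert.RedCertW 2 (37 / 50) 45 3 t c ε N) : RigidSpec 4 :=
  rigidSpec_of_redW (k := 2) (M := 42) (q := 3) (σ := 37 / 50) (θ := 4 / 5) rfl (by norm_num) (by norm_num) (by norm_num)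
    (by norm_num) massSpec_four_four_fifths (by norm_num) hok H

end Vale.Agent.P252G
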