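import Vale.Agent.P252G.Sections

/-!
A centre of a section with bounded volume product, and the bound on the gradient image.
-/

open Set MeasureTheory Matrix
open scoped Pointwise

namespace Vale.Agent.P252G

open Vale.Agent.P252 (hessian)
open Vale.Agent.P252B (V pd Admissible contDiffOn_pd hessian_eq fderiv_strict_mono fderiv_apply_sum
  tangent_le convex_comb_le)

namespace Sol

variable {n : ℕ} (P : Sol n)

/-- The polar of the section about `c`. -/
def polar (h : ℝ) (c : V n) : Set (V n) := {y | ∀ z ∈ P.sec h, ∑ i, y i * (z i - c i) ≤ 1}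

/-- The section shrunk by the factor `1 - δ` about `c`. -/
def inner (h : ℝ) (c : V n) (δ : ℝ) : Set (V n) := {x | c + (1 - δ)⁻¹ • (x - c) ∈ P.sec h}

/-- The gradient map. -/
noncomputable def gr (x : V n) : V n := WithLp.toLp 2 fun i => pd P.u i x

lemma isOpen_inner (h : ℝ) (c : V n) (δ : ℝ) : IsOpen (P.inner h c δ) :=
  (P.isOpen_sec h).preimage (by fun_prop)

lemma inner_subset {h : ℝ} {c : V n} {δ : ℝ} (hc : c ∈ P.sec h) (h0 : 0 < δ) (h1 : δ < 1) :
    P.inner h c δ ⊆ P.sec h := fun x hx => by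
  have h2 : 0 < 1 - δ := by linarith
  have := P.convex_sec h hc hx h0.le h2.le (by ring)
  convert this using 1
  rw [smul_add, smul_smul, mul_inv_cancel₀ h2.ne', one_smul, ← add_assoc, ← add_smul,
    show δ + (1 - δ) = 1 by ring, one_smul, add_sub_cancel]

end Sol

variable {n : ℕ}

/-- A power with exponent between `0` and `θ` is bounded by two scaled powers. -/
lemma rpow_le_scaled {x a σ θ : ℝ} (hx : 0 < x) (ha : 0 < a) (hσ : 0 ≤ σ) (hσθ : σ ≤ θ) :
    x ^ σ ≤ a ^ (σ - θ) * x ^ θ + a ^ σ := by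
  have e : (x / a) ^ σ ≤ (x / a) ^ θ + 1 := by
    rcases le_or_gt (x / a) 1 with hc | hc
    · linarith [Real.rpow_le_one (by positivity) hc hσ, Real.rpow_pos_of_pos (div_pos hx ha) θ]
    · linarith [Real.rpow_le_rpow_of_exponent_le hc.le hσθ]
  rw [Real.div_rpow hx.le ha.le, Real.div_rpow hx.le ha.le, div_le_iff₀ (by positivity)] at e
  refine e.trans (le_of_eq ?_)
  rw [Real.rpow_sub ha]
  field_simp

/-- The matrix of the edge vectors, as columns. -/
def edges (z : Fin (n + 1) → V n) : Matrix (Fin n) (Fin n) ℝ :=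
  Matrix.of fun i j => z j.succ i - z 0 i

lemma volume_cube (r : ℝ) (hr : 0 ≤ r) :
    volume {t : V n | ∀ i, |t i| ≤ r} = ENNReal.ofReal ((2 * r) ^ n) := by
  have e : {t : V n | ∀ i, |t i| ≤ r} =
      WithLp.ofLp ⁻¹' Set.Icc (fun _ => -r) (fun _ => r) := by
    ext x
    simp only [Set.mem_ofPred_eq, Set.mem_preimage, Set.mem_Icc, Pi.le_def, abs_le, forall_and]
  rw [e, (PiLp.volume_preserving_ofLp (Fin n)).measure_preimage
    measurableSet_Icc.nullMeasurableSet, Real.volume_Icc_pi, Finset.prod_const, Finset.card_univ,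
    Fintype.card_fin, ← ENNReal.ofReal_pow (by linarith)]
  congr 1; ring

lemma det_toEuclidean (A : Matrix (Fin n) (Fin n) ℝ) :
    LinearMap.det (Matrix.toEuclideanLin A) = A.det := by
  rw [Matrix.toEuclideanLin_eq_toLin, LinearMap.det_toLin]

namespace Sol

variable {n : ℕ} (P : Sol n)

/-- A centre with bounded volume product, finite polar. -/
theorem exists_centre {h : ℝ} (hh : 0 < h) : ∃ c, c ∈ P.sec h ∧ P.u c ≤ h / 2 ∧
    volume (P.polar h c) < ⊤ ∧
    (volume (P.sec h)).toReal * (volume (P.polar h c)).toReal ≤ (8 * ((n : ℝ) + 1)) ^ n := by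
  classical
  have hcpt := P.isCompact_csec h
  have hne : (P.csec h).Nonempty := ⟨P.p₀, P.sec_subset_csec h (P.mem_sec₀ hh)⟩
  set K := Set.univ.pi fun _ : Fin (n + 1) => P.csec h with hK
  have hcont : Continuous fun z : Fin (n + 1) → V n => |(edges z).det| := by
    refine (Continuous.matrix_det ?_).abs
    exact continuous_matrix fun i j => by simp only [edges, Matrix.of_apply]; fun_prop
  obtain ⟨z, hz, hmax⟩ := (isCompact_univ_pi fun _ : Fin (n + 1) => hcpt).exists_isMaxOn
    (Set.univ_pi_nonempty_iff.2 fun _ => hne) hcont.continuousOn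
  have hzK : ∀ k, z k ∈ P.csec h := fun k => hz k (mem_univ k)
  set A := edges z with hA
  -- the maximal determinant is positive
  have hdet : 0 < |A.det| := by
    obtain ⟨r, hr, hball⟩ := Metric.isOpen_iff.1 (P.isOpen_sec h) P.p₀ (P.mem_sec₀ hh)
    set y : Fin (n + 1) → V n := Fin.cons P.p₀ fun j => P.p₀ + (r / 2) • EuclideanSpace.single j 1
    have hy : y ∈ K := fun k _ => by
      refine P.sec_subset_csec h (hball ?_)
      refine Fin.cases (Metric.mem_ball_self hr) (fun j => ?_) k
      simp only [y, Fin.cons_succ, Metric.mem_ball, dist_eq_norm, add_sub_cancel_left, norm_smul,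
        EuclideanSpace.single, PiLp.norm_single, norm_one, mul_one, Real.norm_eq_abs]
      rw [abs_of_pos (by linarith)]; linarith
    have e : edges y = (r / 2) • (1 : Matrix (Fin n) (Fin n) ℝ) := by
      ext i j
      simp [edges, y, Matrix.one_apply]
    refine lt_of_lt_of_le ?_ (isMaxOn_iff.1 hmax y hy)
    rw [e, Matrix.det_smul, Matrix.det_one, mul_one, abs_pos]
    positivity
  have hdet0 : A.det ≠ 0 := abs_pos.1 hdet
  -- coordinates of a point of the section are bounded by one
  have hcoord : ∀ x ∈ P.csec h, ∀ j, |(A.cramer fun i => x i - z 0 i) j / A.det| ≤ 1 := by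
    intro x hx j
    rw [abs_div, div_le_one hdet, Matrix.cramer_apply]
    have hy : Function.update z j.succ x ∈ K := fun k _ => by
      by_cases hk : k = j.succ
      · subst hk; simpa using hx
      · simpa [hk] using hzK k
    refine le_trans (le_of_eq ?_) (isMaxOn_iff.1 hmax _ hy)
    congr 2
    ext i l
    have h0 : (0 : Fin (n + 1)) ≠ j.succ := (Fin.succ_ne_zero j).symm
    by_cases hl : l = j
    · subst hl; simp [edges, Function.update_of_ne h0]
    · have hs : l.succ ≠ j.succ := fun e => hl (Fin.succ_injective _ e)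
      simp [A, edges, Function.update_of_ne h0, hl]
  set f := Matrix.toEuclideanLin A with hf
  have hfdet : LinearMap.det f = A.det := det_toEuclidean A
  -- the volume of the section
  have hS : volume (P.sec h) ≤ ENNReal.ofReal (2 ^ n * |A.det|) := by
    have hsub : P.sec h ⊆ (fun w => z 0 + w) '' (f '' {t : V n | ∀ i, |t i| ≤ 1}) := by
      intro x hx
      refine ⟨x - z 0, ⟨WithLp.toLp 2 fun j => (A.cramer fun i => x i - z 0 i) j / A.det,
        fun j => by simpa using hcoord x (P.sec_subset_csec h hx) j, ?_⟩, by simp⟩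
      ext i
      have h1 := congrFun (Matrix.mulVec_cramer A fun i => x i - z 0 i) i
      simp only [Matrix.mulVec, dotProduct, Pi.smul_apply, smul_eq_mul] at h1
      simp only [hf, Matrix.toEuclideanLin_apply, Matrix.mulVec, dotProduct, PiLp.sub_apply]
      simp only [mul_div, ← Finset.sum_div, h1]
      field_simp
    refine (measure_mono hsub).trans (le_of_eq ?_)
    rw [Set.image_add_left, measure_preimage_add, Measure.addHaar_image_linearMap, hfdet,
      volume_cube 1 zero_le_one, ← ENNReal.ofReal_mul (abs_nonneg _)]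
    congr 1; ring
  -- the centre
  set m := fun k => (1/2 : ℝ) • P.p₀ + (1/2 : ℝ) • z k with hm
  set c := ∑ k, ((n : ℝ) + 1)⁻¹ • m k with hc
  have hmk : ∀ k, m k ∈ P.Ω ∧ P.u (m k) ≤ h / 2 := fun k => by
    refine ⟨P.convex P.mem₀ (hzK k).1 (by norm_num) (by norm_num) (by norm_num), ?_⟩
    have := convex_comb_le P.adm P.mem₀ (hzK k).1 (a := 1/2) (b := 1/2) (by norm_num) (by norm_num)
      (by norm_num)
    rw [P.val₀] at this
    have := (hzK k).2
    simp only [hm]
    linarith
  have hmS : ∀ k, m k ∈ P.sec h := fun k => ⟨(hmk k).1, by linarith [(hmk k).2]⟩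
  have hw : ∑ _k : Fin (n + 1), ((n : ℝ) + 1)⁻¹ = 1 := by
    rw [Finset.sum_const, Finset.card_univ, Fintype.card_fin, nsmul_eq_mul]
    push_cast
    exact mul_inv_cancel₀ (by positivity)
  have hcu : c ∈ P.Ω ∧ P.u c ≤ h / 2 := by
    refine ⟨P.convex.sum_mem (fun _ _ => by positivity) hw fun k _ => (hmk k).1, ?_⟩
    have hcv : ConvexOn ℝ P.Ω P.u :=
      ⟨P.convex, fun x hx y hy a b ha hb hab => convex_comb_le P.adm hx hy ha hb hab⟩
    refine (hcv.map_sum_le (fun _ _ => by positivity) hw fun k _ => (hmk k).1).trans ?_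
    refine (Finset.sum_le_sum fun k _ =>
      smul_le_smul_of_nonneg_left (hmk k).2 (by positivity)).trans (le_of_eq ?_)
    rw [← Finset.sum_smul, hw, one_smul]
  -- the volume of the polar
  set g := Matrix.toEuclideanLin Aᵀ with hg
  have hgdet : LinearMap.det g = A.det := by rw [hg, det_toEuclidean, Matrix.det_transpose]
  have hP : volume (P.polar h c) ≤ ENNReal.ofReal (|A.det|⁻¹ * (4 * ((n : ℝ) + 1)) ^ n) := by
    have hsub : P.polar h c ⊆ g ⁻¹' {t : V n | ∀ i, |t i| ≤ 2 * ((n : ℝ) + 1)} := by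
      intro y hy j
      set D := fun k => ∑ i, y i * (m k i - c i) with hD
      have hD1 : ∀ k, D k ≤ 1 := fun k => hy (m k) (hmS k)
      have hsum : ∑ k, D k = 0 := by
        have hci : ∀ i, c i = ((n : ℝ) + 1)⁻¹ * ∑ k, m k i := fun i => by
          rw [hc, WithLp.ofLp_sum, Finset.sum_apply, Finset.mul_sum]
          simp
        simp only [hD]
        rw [Finset.sum_comm]
        refine Finset.sum_eq_zero fun i _ => ?_
        rw [← Finset.mul_sum, Finset.sum_sub_distrib, Finset.sum_const, Finset.card_univ,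
          Fintype.card_fin, nsmul_eq_mul, hci i]
        push_cast
        field_simp
        ring
      have hlow : ∀ k, -(n : ℝ) ≤ D k := fun k => by
        have h2 : ∑ l ∈ Finset.univ.erase k, D l ≤ ∑ _l ∈ Finset.univ.erase k, (1 : ℝ) :=
          Finset.sum_le_sum fun l _ => hD1 l
        rw [Finset.sum_const, Finset.card_erase_of_mem (Finset.mem_univ k), Finset.card_univ,
          Fintype.card_fin, Nat.add_sub_cancel, nsmul_eq_mul, mul_one] at h2
        have := Finset.add_sum_erase Finset.univ D (Finset.mem_univ k)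
        linarith
      have hval : (g y) j = 2 * (D j.succ - D 0) := by
        simp only [hg, Matrix.toEuclideanLin_apply, Matrix.mulVec, dotProduct,
          Matrix.transpose_apply, A, edges, Matrix.of_apply, hD, ← Finset.sum_sub_distrib,
          Finset.mul_sum]
        refine Finset.sum_congr rfl fun i _ => ?_
        simp only [hm, PiLp.add_apply, PiLp.smul_apply, smul_eq_mul]
        ring
      rw [hval, abs_le]
      constructor <;> linarith [hD1 0, hD1 j.succ, hlow 0, hlow j.succ]
    refine (measure_mono hsub).trans (le_of_eq ?_)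
    rw [Measure.addHaar_preimage_linearMap volume (hgdet ▸ hdet0), hgdet, abs_inv,
      volume_cube _ (by positivity), ← ENNReal.ofReal_mul (by positivity)]
    congr 1; ring
  refine ⟨c, ⟨hcu.1, by linarith [hcu.2]⟩, hcu.2, lt_of_le_of_lt hP ENNReal.ofReal_lt_top, ?_⟩
  refine (mul_le_mul (ENNReal.toReal_le_of_le_ofReal (by positivity) hS)
    (ENNReal.toReal_le_of_le_ofReal (by positivity) hP) ENNReal.toReal_nonneg (by positivity)).trans
    (le_of_eq ?_)
  rw [← mul_assoc, mul_assoc ((2 : ℝ) ^ n), mul_inv_cancel₀ hdet.ne', mul_one, ← mul_pow]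
  congr 1; ring

lemma det_gr {x : V n} (hx : x ∈ P.Ω) : HasFDerivAt P.gr (fderiv ℝ P.gr x) x ∧
    |(fderiv ℝ P.gr x).det| = dt P.u x := by
  have hqd : ContDiffOn ℝ (↑(⊤ : ℕ∞)) P.gr P.Ω :=
    contDiffOn_euclidean.2 fun i => contDiffOn_pd P.isOpen P.smooth i
  have hd : DifferentiableAt ℝ P.gr x :=
    ((hqd.differentiableOn (by norm_num)) x hx).differentiableAt (P.isOpen.mem_nhds hx)
  refine ⟨hd.hasFDerivAt, ?_⟩
  set b := (EuclideanSpace.basisFun (Fin n) ℝ).toBasis with hb
  have hm : LinearMap.toMatrix b b (fderiv ℝ P.gr x).toLinearMap = (hessian P.u x)ᵀ := by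
    ext i j
    rw [LinearMap.toMatrix_apply, Matrix.transpose_apply]
    simp only [hb, OrthonormalBasis.coe_toBasis, OrthonormalBasis.coe_toBasis_repr_apply,
      EuclideanSpace.basisFun_repr, EuclideanSpace.basisFun_apply, ContinuousLinearMap.coe_coe]
    have h1 : HasDerivAt (fun t : ℝ => P.gr (x + t • EuclideanSpace.single j 1) i)
        ((fderiv ℝ P.gr x (EuclideanSpace.single j 1)) i) 0 :=
      (PiLp.proj 2 (fun _ : Fin n => ℝ) i).hasFDerivAt.comp_hasDerivAt (0 : ℝ)
        (hd.hasFDerivAt.hasLineDerivAt (EuclideanSpace.single j 1))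
    have h2 : HasDerivAt (fun t : ℝ => P.gr (x + t • EuclideanSpace.single j 1) i)
        (hessian P.u x j i) 0 := by
      rw [hessian_eq P.isOpen P.smooth hx]
      exact ((((contDiffOn_pd P.isOpen P.smooth i).differentiableOn (by norm_num)) x hx
        ).differentiableAt (P.isOpen.mem_nhds hx)).hasFDerivAt.hasLineDerivAt
        (EuclideanSpace.single j 1)
    exact h1.unique h2
  rw [ContinuousLinearMap.det, ← LinearMap.det_toMatrix b, hm, Matrix.det_transpose,
    abs_of_pos (P.posDef hx).det_pos, dt]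

/-- The determinant integral over the shrunk section. -/
theorem inner_mass {h δ : ℝ} {c : V n} (hh : 0 < h) (h0 : 0 < δ) (h1 : δ < 1)
    (hc : c ∈ P.sec h) (hfin : volume (P.polar h c) < ⊤) :
    (∫ x in P.inner h c δ, dt P.u x) ≤ (h / δ) ^ n * (volume (P.polar h c)).toReal := by
  have hT := (P.isOpen_inner h c δ).measurableSet
  have hTS := P.inner_subset hc h0 h1
  have hd : 0 < h / δ := by positivity
  have hinj : InjOn P.gr (P.inner h c δ) := by
    intro x hx y hy hxy
    by_contra hne
    have hp : ∀ i, pd P.u i x = pd P.u i y := fun i =>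
      congrFun (congrArg WithLp.ofLp hxy) i
    have h := fderiv_strict_mono P.adm (hTS hx).1 (hTS hy).1 hne
    rw [fderiv_apply_sum, fderiv_apply_sum] at h
    simp only [hp, lt_irrefl] at h
  have hf' : ∀ x ∈ P.inner h c δ, HasFDerivWithinAt P.gr (fderiv ℝ P.gr x) (P.inner h c δ) x :=
    fun x hx => (P.det_gr (hTS hx).1).1.hasFDerivWithinAt
  have himg : volume (P.gr '' P.inner h c δ) ≤
      ENNReal.ofReal ((h / δ) ^ n) * volume (P.polar h c) := by
    have hsub : P.gr '' P.inner h c δ ⊆ (h / δ) • P.polar h c := by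
      rintro _ ⟨x, hx, rfl⟩
      refine ⟨(h / δ)⁻¹ • P.gr x, fun z hz => ?_, smul_inv_smul₀ hd.ne' _⟩
      set w := c + (1 - δ)⁻¹ • (x - c) with hw
      have hy : (1 - δ) • w + δ • z ∈ P.sec h :=
        P.convex_sec h hx hz (by linarith) h0.le (by ring)
      have e : (1 - δ) • w + δ • z - x = δ • (z - c) := by
        have hne : (1 - δ) ≠ 0 := by linarith
        rw [hw, smul_add, smul_smul, mul_inv_cancel₀ hne, one_smul]
        module
      have ht := tangent_le P.adm (hTS hx).1 hy.1
      rw [e, map_smul, smul_eq_mul, fderiv_apply_sum] at ht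
      have hu := P.nonneg (hTS hx).1
      have hy2 := hy.2
      have e2 : ∑ i, ((h / δ)⁻¹ • P.gr x) i * (z i - c i) =
          (δ * ∑ i, (z - c) i * pd P.u i x) / h := by
        rw [Finset.mul_sum, Finset.sum_div]
        refine Finset.sum_congr rfl fun i _ => ?_
        simp only [Sol.gr, PiLp.smul_apply, PiLp.sub_apply, smul_eq_mul]
        field_simp
      rw [e2, div_le_one hh]
      linarith
    refine (measure_mono hsub).trans (le_of_eq ?_)
    rw [Measure.addHaar_smul, finrank_euclideanSpace_fin, abs_of_pos (by positivity)]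
  have hint : IntegrableOn (dt P.u) (P.inner h c δ) volume :=
    ((P.contDiffOn_dt.continuousOn.mono (P.csec_subset h)).integrableOn_compact
      (P.isCompact_csec h)).mono_set (hTS.trans (P.sec_subset_csec h))
  have e : ∫⁻ x in P.inner h c δ, ENNReal.ofReal (dt P.u x) = volume (P.gr '' P.inner h c δ) := by
    rw [← lintegral_abs_det_fderiv_eq_addHaar_image volume hT hf' hinj]
    exact setLIntegral_congr_fun hT fun x hx => by rw [(P.det_gr (hTS hx).1).2]
  have hnn : 0 ≤ᵐ[volume.restrict (P.inner h c δ)] dt P.u := by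
    filter_upwards [ae_restrict_mem hT] with x hx
    exact (P.dt_pos (hTS hx).1).le
  rw [← ENNReal.ofReal_le_ofReal_iff (by positivity),
    ofReal_integral_eq_lintegral_ofReal hint hnn, e,
    ENNReal.ofReal_mul (by positivity), ENNReal.ofReal_toReal hfin.ne]
  exact himg

/-- The weighted determinant integral over the shrunk section. -/
theorem inner_bound (M : ℕ) {θ h δ : ℝ} (hθ0 : 0 ≤ θ) (hθ1 : θ ≤ 1) (hh : 0 < h) (h0 : 0 < δ)
    (h1 : δ < 1) :
    ∃ c, c ∈ P.sec h ∧ P.u c ≤ h / 2 ∧
      (∫ x in P.inner h c δ, P.cut h x ^ M * dt P.u x ^ θ) ≤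
        ((8 * ((n : ℝ) + 1)) ^ n / δ ^ n + 1) * h ^ M * h ^ ((n : ℝ) * θ) *
          (volume (P.sec h)).toReal ^ (1 - 2 * θ) := by
  obtain ⟨c, hc, hcu, hfin, hvp⟩ := P.exists_centre hh
  refine ⟨c, hc, hcu, ?_⟩
  set C := (8 * ((n : ℝ) + 1)) ^ n with hC
  set S := (volume (P.sec h)).toReal with hS'
  have hS : 0 < S := P.volume_sec_pos hh
  set a := h ^ (n : ℝ) * S ^ (-2 : ℝ) with ha
  have ha0 : 0 < a := by positivity
  have hT := (P.isOpen_inner h c δ).measurableSet
  have hTS := P.inner_subset hc h0 h1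
  have ion : ∀ {f : V n → ℝ}, ContinuousOn f P.Ω → IntegrableOn f (P.inner h c δ) volume :=
    fun hf => ((hf.mono (P.csec_subset h)).integrableOn_compact (P.isCompact_csec h)).mono_set
      (hTS.trans (P.sec_subset_csec h))
  have hdc := P.contDiffOn_dt.continuousOn
  have hdp : ContinuousOn (fun x => dt P.u x ^ θ) P.Ω :=
    hdc.rpow_const fun _ hx => Or.inl (P.dt_pos hx).ne'
  have hfv : volume (P.inner h c δ) < ⊤ :=
    (measure_mono hTS).trans_lt (P.volume_sec_lt_top h)
  have i1 : IntegrableOn (fun x => h ^ M * (a ^ (θ - 1) * dt P.u x + a ^ θ))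
      (P.inner h c δ) volume :=
    (((ion hdc).const_mul _).add (integrableOn_const (C := a ^ θ) hfv.ne)).const_mul _
  refine (setIntegral_mono_on (ion (((P.continuousOn_cut h).pow M).mul hdp)) i1 hT fun x hx => ?_).trans ?_
  · have hd := P.dt_pos (hTS hx).1
    have e := rpow_le_scaled hd ha0 hθ0 hθ1
    rw [Real.rpow_one] at e
    exact mul_le_mul (pow_le_pow_left₀ (P.cut_nonneg (hTS hx)) (P.cut_le (hTS hx)) M) e
      (Real.rpow_nonneg hd.le _) (by positivity)
  rw [integral_const_mul, integral_add ((ion hdc).const_mul _) (integrableOn_const hfv.ne),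
    integral_const_mul, setIntegral_const, smul_eq_mul, measureReal_def]
  have b1 : (∫ x in P.inner h c δ, dt P.u x) ≤ C / δ ^ n * h ^ (n : ℝ) * S ^ (-1 : ℝ) := by
    refine (P.inner_mass hh h0 h1 hc hfin).trans ?_
    rw [Real.rpow_natCast, Real.rpow_neg_one, ← div_eq_mul_inv, le_div_iff₀ hS]
    calc (h / δ) ^ n * (volume (P.polar h c)).toReal * S
        = (h ^ n / δ ^ n) * (S * (volume (P.polar h c)).toReal) := by rw [div_pow]; ring
      _ ≤ (h ^ n / δ ^ n) * C := mul_le_mul_of_nonneg_left hvp (by positivity)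
      _ = _ := by ring
  have b2 : (volume (P.inner h c δ)).toReal ≤ S :=
    ENNReal.toReal_mono (P.volume_sec_lt_top h).ne (measure_mono hTS)
  refine (mul_le_mul_of_nonneg_left (add_le_add (mul_le_mul_of_nonneg_left b1 (by positivity))
    (mul_le_mul_of_nonneg_right b2 (by positivity))) (by positivity)).trans (le_of_eq ?_)
  have e1 : a ^ (θ - 1) * (h ^ (n : ℝ) * S ^ (-1 : ℝ)) = h ^ ((n : ℝ) * θ) * S ^ (1 - 2 * θ) := by
    rw [ha, Real.mul_rpow (by positivity) (by positivity), ← Real.rpow_mul hh.le,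
      ← Real.rpow_mul hS.le, mul_mul_mul_comm, ← Real.rpow_add hh, ← Real.rpow_add hS]
    ring_nf
  have e2 : a ^ θ * S = h ^ ((n : ℝ) * θ) * S ^ (1 - 2 * θ) := by
    rw [ha, Real.mul_rpow (by positivity) (by positivity), ← Real.rpow_mul hh.le,
      ← Real.rpow_mul hS.le, mul_assoc, ← Real.rpow_add_one hS.ne']
    ring_nf
  calc _ = h ^ M * (C / δ ^ n * (a ^ (θ - 1) * (h ^ (n : ℝ) * S ^ (-1 : ℝ))) + a ^ θ * S) := by
        ring
    _ = _ := by rw [e1, e2]; ring

end Sol

end Vale.Agent.P252G
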