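import Vale.Agent.P252MN.Mass

/-!
More instances of the mass bound, with the exponents used by the weighted certificates.
-/

namespace Vale.Agent.P252G

open Vale.Agent.P252MN

theorem massSpec_four_seven_tenths : MassSpec 4 (7 / 10) 17 :=
  P252MN.massSpec (e := 5) (by norm_num) (by norm_num) (by norm_num [MassCond, lam, bmax, gap])

theorem massSpec_four_four_fifths : MassSpec 4 (4 / 5) 20 :=
  P252MN.massSpec (e := 6) (by norm_num) (by norm_num) (by norm_num [MassCond, lam, bmax, gap])

theorem massSpec_five_three_fifths : MassSpec 5 (3 / 5) 21 :=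
  P252MN.massSpec (e := 6) (by norm_num) (by norm_num) (by norm_num [MassCond, lam, bmax, gap])

theorem massSpec_six_eleven_twentieths : MassSpec 6 (11 / 20) 30 :=
  P252MN.massSpec (e := 8) (by norm_num) (by norm_num) (by norm_num [MassCond, lam, bmax, gap])

end Vale.Agent.P252G
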