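import Vale.Agent.P252G.DivW.Final
import Vale.Agent.P252G.Cert.ReduceW
import Vale.Agent.P252G.MassMore

/-!
Rigidity in dimension `k + 2` from the parameters and a reduced weighted certificate.
-/

namespace Vale.Agent.P252G

/-- One dimension from one reduced weighted certificate. -/
theorem rigidSpec_of_redW {ι : Type} [Fintype ι] {k n q M M₀ : ℕ} {σ θ : ℝ} {t : ι → WTerm}
    {c : ι → ℝ} (hn : n = k + 2) (hk : 0 < k) (hσ0 : 0 ≤ σ) (hσθ : σ ≤ θ)
    (hq : (n : ℝ) * max σ (1 - σ) < q) (hM₀ : MassSpec n θ M₀) (hM : M₀ ≤ M)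
    (hok : ∀ i, (t i).Ok (M + q))
    (H : ∃ ε N : ℝ, 0 < ε ∧ Cert.RedCertW k σ (M + q) q t c ε N) : RigidSpec n := by
  obtain ⟨ε, N, hε, hR⟩ := H
  subst hn
  exact rigidSpecW hσ0 hσθ hq hM₀ hM hok hε fun J hJ => Cert.pointCertW_of_red hk hR J hJ

end Vale.Agent.P252G
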