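import Vale.Agent.P252MN.Mass

/-!
Mass bound instances with larger weight exponent in dimensions seven, eight and nine.
-/

namespace Vale.Agent.P252G

open Vale.Agent.P252MN

theorem massSpec_seven_eleven_twentieths : MassSpec 7 (11 / 20) 150 :=
  P252MN.massSpec (e := 39) (by norm_num) (by norm_num) (by norm_num [MassCond, lam, bmax, gap])

theorem massSpec_eight_twelve_twentyfifths : MassSpec 8 (12 / 25) 300 :=
  P252MN.massSpec (e := 74) (by norm_num) (by norm_num) (by norm_num [MassCond, lam, bmax, gap])

theorem massSpec_nine_two_fifths : MassSpec 9 (2 / 5) 150 :=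
  P252MN.massSpec (e := 36) (by norm_num) (by norm_num) (by norm_num [MassCond, lam, bmax, gap])

theorem massSpec_nine_twentyone_fiftieths : MassSpec 9 (21 / 50) 1000 :=
  P252MN.massSpec (e := 239) (by norm_num) (by norm_num) (by norm_num [MassCond, lam, bmax, gap])

end Vale.Agent.P252G
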