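import Vale.Agent.P252G.Final

/-!
Unfolding of rigidity in a range of dimensions to elementary hypotheses.
-/

open Set MeasureTheory

namespace Vale.Agent.P252G

open Vale.Agent.P252 (hessian)
open Vale.Agent.P252B (V Admissible IsAM)
open Vale.Agent.P252D (EuclideanComplete euclideanComplete_univ)

/-- Rigidity in the dimensions from three to `K`, in elementary terms. -/
theorem range_unfolded {K : ℕ} (h : ∀ n, 3 ≤ n → n ≤ K → RigidSpec n) :
    ∀ n : ℕ, 3 ≤ n → n ≤ K →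
    (∀ (Ω : Set (EuclideanSpace ℝ (Fin n))) (u : EuclideanSpace ℝ (Fin n) → ℝ),
      IsOpen Ω → Convex ℝ Ω → Ω.Nonempty → ContDiffOn ℝ (↑(⊤ : ℕ∞)) u Ω →
      (∀ x ∈ Ω, (hessian u x).PosDef) →
      (((∀ x ∈ Ω, ∑ i, ∑ j, ((hessian u x).det * (hessian u x)⁻¹ i j)
        * hessian (fun y => (hessian u y).det ^ (-(((n : ℝ) + 1) / ((n : ℝ) + 2)))) x i j = 0) ∧
      EuclideanComplete Ω u) ↔
      Ω = univ ∧ ∃ (A : Matrix (Fin n) (Fin n) ℝ) (b : Fin n → ℝ) (c : ℝ), A.PosDef ∧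
        ∀ x, u x = (∑ i, ∑ j, A i j * x i * x j) / 2 + (∑ i, b i * x i) + c)) ∧
    ∀ u : EuclideanSpace ℝ (Fin n) → ℝ, ContDiff ℝ (↑(⊤ : ℕ∞)) u →
      (∀ x, (hessian u x).PosDef) →
      (∀ x, ∑ i, ∑ j, ((hessian u x).det * (hessian u x)⁻¹ i j)
        * hessian (fun y => (hessian u y).det ^ (-(((n : ℝ) + 1) / ((n : ℝ) + 2)))) x i j = 0) →
      ∃ (A : Matrix (Fin n) (Fin n) ℝ) (b : Fin n → ℝ) (c : ℝ), A.PosDef ∧
        ∀ x, u x = (∑ i, ∑ j, A i j * x i * x j) / 2 + (∑ i, b i * x i) + c := by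
  intro n h3 hK
  refine ⟨fun Ω u ho hc hne hs hp => h n h3 hK Ω u hne ⟨ho, hc, hs, hp⟩, fun u hs hp ham => ?_⟩
  have hu : Admissible (univ : Set (V n)) u :=
    ⟨isOpen_univ, convex_univ, hs.contDiffOn, fun x _ => hp x⟩
  exact ((h n h3 hK univ u univ_nonempty hu).1 ⟨fun x _ => ham x, euclideanComplete_univ hu⟩).2

end Vale.Agent.P252G
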