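import Vale.Agent.P252G.Final
import Vale.Agent.P252D.Final
import Vale.Agent.P252E.Main
import Vale.Agent.P252M.Radial
import Vale.Agent.P252F.PointCert

/-!
Dimension three, in the general format.
-/

open Set MeasureTheory

namespace Vale.Agent.P252G

open Vale.Agent.P252B (V)

/-- Rigidity in dimension three. -/
theorem rigidSpec_three : RigidSpec 3 := by
  obtain ⟨ε, N, hε, hP⟩ := P252F.exists_pointCert
  intro Ω u hne hu
  constructor
  · rintro ⟨ham, hC⟩
    exact P252D.rigidity_three P252M.massSpec (P252E.divSpec _ _) P252F.hdeg hε hP Ω u hne hu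
      ham hC
  · rintro ⟨rfl, S, b, k, -, h⟩
    exact paraboloid_complete hu h

end Vale.Agent.P252G
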